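import Vale.Agent.P011.D4T.H64.Interp
import Vale.Agent.P011.D4I.H64.Odd

/-!
Weak approximation at finite and infinite (real or complex) places; restriction of places.
-/

open NumberField IsDedekindDomain Topology Filter

namespace Vale.Agent.P011.D4I

open Vale.Agent.P011.Arith Vale.Agent.P011.D4 Vale.Agent.P011.D4T

section pa

variable {F : Type} [Field F] [NumberField F]

/-- The absolute value attached to a finite or infinite place. -/
noncomputable def paAbv : HeightOneSpectrum (𝓞 F) ⊕ InfinitePlace F → AbsoluteValue F ℝ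
  | .inl v => plAbv (Sum.inl v)
  | .inr u => u.1

theorem paAbv_inequiv (p q : HeightOneSpectrum (𝓞 F) ⊕ InfinitePlace F) (h : p ≠ q) :
    ¬ (paAbv p).IsEquiv (paAbv q) := by
  intro he
  have hhalf : ∀ (v : HeightOneSpectrum (𝓞 F)), ¬ plAbv (Sum.inl v) (1 / 2 : F) < 1 := by
    intro v
    rw [plAbv_lt_one, not_lt, map_div₀, map_one]
    have h2 : v.valuation F (2 : F) ≤ 1 := by
      have h : v.valuation F (algebraMap (𝓞 F) F 2) ≤ 1 := v.valuation_le_one (2 : 𝓞 F)
      rwa [map_ofNat] at h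
    have h0 : v.valuation F (2 : F) ≠ 0 := (Valuation.ne_zero_iff _).mpr two_ne_zero
    rw [one_div, one_le_inv₀ (zero_lt_iff.mpr h0)]
    exact h2
  have hhalf' : ∀ u : InfinitePlace F, u.1 (1 / 2 : F) < 1 := by
    intro u
    change u (1 / 2 : F) < 1
    rw [← InfinitePlace.norm_embedding_eq, map_div₀, map_one, map_ofNat]
    norm_num
  rcases p with v | u <;> rcases q with v' | u'
  · exact plAbv_inequiv (Sum.inl v) (Sum.inl v') (fun h' => h (by rw [Sum.inl_injective h'])) he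
  · exact hhalf v (((AbsoluteValue.isEquiv_iff_lt_one_iff).mp he _).mpr (hhalf' u'))
  · exact hhalf v' (((AbsoluteValue.isEquiv_iff_lt_one_iff).mp he _).mp (hhalf' u))
  · exact h (by rw [InfinitePlace.eq_iff_isEquiv.mpr he])

theorem paAbv_nontrivial (p : HeightOneSpectrum (𝓞 F) ⊕ InfinitePlace F) :
    (paAbv p).IsNontrivial := by
  rcases p with v | u
  · exact plAbv_nontrivial (Sum.inl v)
  · refine ⟨2, two_ne_zero, ?_⟩
    change u (2 : F) ≠ 1
    rw [← InfinitePlace.norm_embedding_eq, map_ofNat]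
    norm_num

/-- Weak approximation. -/
theorem approxA (T : Set (HeightOneSpectrum (𝓞 F) ⊕ InfinitePlace F)) (hT : T.Finite)
    (z : HeightOneSpectrum (𝓞 F) ⊕ InfinitePlace F → F)
    (δ : HeightOneSpectrum (𝓞 F) ⊕ InfinitePlace F → ℝ)
    (hδ : ∀ p, 0 < δ p) : ∃ f : F, ∀ p ∈ T, paAbv p (f - z p) < δ p := by
  have _hfin : Finite T := hT
  have hd := AbsoluteValue.denseRange_algebraMap_pi (F := F)
    (v := fun p : T => paAbv (p : HeightOneSpectrum (𝓞 F) ⊕ InfinitePlace F))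
    (fun p => paAbv_nontrivial _) (fun p q hpq => paAbv_inequiv _ _ (fun h => hpq (Subtype.ext h)))
  have _hft : Fintype T := Fintype.ofFinite T
  by_cases hne : Nonempty T
  · obtain ⟨p0, hp0⟩ := Finite.exists_min
      (fun p : T => δ (p : HeightOneSpectrum (𝓞 F) ⊕ InfinitePlace F))
    obtain ⟨f, hf⟩ := (Metric.denseRange_iff.mp hd)
      (fun p : T => WithAbs.toAbs _ (z p)) (δ p0) (hδ _)
    refine ⟨f, fun p hp => ?_⟩
    rw [dist_pi_lt_iff (hδ _)] at hf
    have h1 := hf ⟨p, hp⟩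
    rw [dist_comm, dist_eq_norm] at h1
    refine lt_of_lt_of_le ?_ (hp0 ⟨p, hp⟩)
    exact h1
  · exact ⟨0, fun p hp => absurd ⟨⟨p, hp⟩⟩ hne⟩

/-- A number field is dense in `ℂ` at a complex place. -/
theorem dense_complex {u : InfinitePlace F} (hu : u.IsComplex) (c : ℂ) {ε : ℝ} (hε : 0 < ε) :
    ∃ s : F, ‖u.embedding s - c‖ < ε := by
  obtain ⟨z, hz⟩ : ∃ z : F, (u.embedding z).im ≠ 0 := by
    by_contra hcon
    push Not at hcon
    rw [InfinitePlace.isComplex_iff] at hu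
    apply hu
    rw [ComplexEmbedding.isReal_iff]
    ext x
    exact Complex.conj_eq_iff_im.mpr (hcon x)
  obtain ⟨Z, hZ⟩ : ∃ Z, Z = u.embedding z := ⟨_, rfl⟩
  rw [← hZ] at hz
  have hM : 0 < 2 * (‖Z‖ + 1) := by positivity
  have hd : 0 < ε / (2 * (‖Z‖ + 1)) := div_pos hε hM
  obtain ⟨β, hβ1, hβ2⟩ := exists_rat_btwn (show c.im / Z.im < c.im / Z.im + ε / (2 * (‖Z‖ + 1)) by
    linarith)
  obtain ⟨α, hα1, hα2⟩ := exists_rat_btwn (show c.re - β * Z.re < c.re - β * Z.re + ε / 2 by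
    linarith)
  refine ⟨(α : F) + (β : F) * z, ?_⟩
  have e1 : (u.embedding ((α : F) + (β : F) * z) - c).re = α - (c.re - β * Z.re) := by
    rw [map_add, map_mul, map_ratCast, map_ratCast, ← hZ]
    simp
    ring
  have e2 : (u.embedding ((α : F) + (β : F) * z) - c).im = β * Z.im - c.im := by
    rw [map_add, map_mul, map_ratCast, map_ratCast, ← hZ]
    simp
  have h1 : |(u.embedding ((α : F) + (β : F) * z) - c).re| < ε / 2 := by
    rw [e1, abs_of_pos (by linarith)]
    linarith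
  have h2 : |(u.embedding ((α : F) + (β : F) * z) - c).im| < ε / 2 := by
    have e3 : (β : ℝ) * Z.im - c.im = Z.im * (β - c.im / Z.im) := by field_simp
    rw [e2, e3, abs_mul, abs_of_pos (show 0 < (β : ℝ) - c.im / Z.im by linarith)]
    have h4 : |Z.im| < ‖Z‖ + 1 := by
      have := Complex.abs_im_le_norm Z
      linarith
    have h5 : (β : ℝ) - c.im / Z.im < ε / (2 * (‖Z‖ + 1)) := by linarith
    calc |Z.im| * (β - c.im / Z.im) ≤ (‖Z‖ + 1) * (β - c.im / Z.im) :=
          mul_le_mul_of_nonneg_right h4.le (by linarith)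
      _ < (‖Z‖ + 1) * (ε / (2 * (‖Z‖ + 1))) := mul_lt_mul_of_pos_left h5 (by positivity)
      _ = ε / 2 := by field_simp
  calc _ ≤ |(u.embedding ((α : F) + (β : F) * z) - c).re| +
        |(u.embedding ((α : F) + (β : F) * z) - c).im| := Complex.norm_le_abs_re_add_abs_im _
    _ < ε := by linarith

/-- Squares are dense at a complex place. -/
theorem exists_sq_complex {u : InfinitePlace F} (hu : u.IsComplex) (l : F) {ε : ℝ} (hε : 0 < ε) :
    ∃ s : F, u (s ^ 2 - l) < ε := by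
  -- a square root in `ℂ`
  obtain ⟨c, hc⟩ := IsAlgClosed.exists_pow_nat_eq (u.embedding l) (n := 2) two_pos
  obtain ⟨s, hs⟩ := dense_complex hu c (ε := min 1 (ε / (2 * ‖c‖ + 2)))
    (lt_min one_pos (by positivity))
  refine ⟨s, ?_⟩
  rw [← InfinitePlace.norm_embedding_eq, map_sub, map_pow, ← hc]
  have h1 : ‖u.embedding s - c‖ < 1 := hs.trans_le (min_le_left _ _)
  have h2 : ‖u.embedding s - c‖ < ε / (2 * ‖c‖ + 2) := hs.trans_le (min_le_right _ _)
  have e : u.embedding s ^ 2 - c ^ 2 = (u.embedding s - c) * (u.embedding s - c + 2 * c) := by ring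
  rw [e, norm_mul]
  have h3 : ‖u.embedding s - c + 2 * c‖ ≤ 2 * ‖c‖ + 1 := by
    calc _ ≤ ‖u.embedding s - c‖ + ‖2 * c‖ := norm_add_le _ _
      _ ≤ 1 + 2 * ‖c‖ := by
        rw [norm_mul]
        norm_num
        linarith
      _ = 2 * ‖c‖ + 1 := by ring
  have h4 : 0 ≤ ‖c‖ := norm_nonneg c
  rw [lt_div_iff₀ (by positivity)] at h2
  have h5 := norm_nonneg (u.embedding s - c)
  nlinarith

/-- The finite places in `S` and the infinite places. -/
def TS (S : Set (HeightOneSpectrum (𝓞 F))) : Set (HeightOneSpectrum (𝓞 F) ⊕ InfinitePlace F) :=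
  Sum.inl '' S ∪ Set.range Sum.inr

theorem inl_mem_TS {S : Set (HeightOneSpectrum (𝓞 F))} {v : HeightOneSpectrum (𝓞 F)} :
    (Sum.inl v : HeightOneSpectrum (𝓞 F) ⊕ InfinitePlace F) ∈ TS S ↔ v ∈ S := by
  simp [TS]

omit [NumberField F] in
theorem inr_mem_TS {S : Set (HeightOneSpectrum (𝓞 F))} {u : InfinitePlace F} :
    (Sum.inr u : HeightOneSpectrum (𝓞 F) ⊕ InfinitePlace F) ∈ TS S := by
  simp [TS]

theorem TS_finite {S : Set (HeightOneSpectrum (𝓞 F))} (h : S.Finite) : (TS S).Finite :=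
  (h.image _).union (Set.finite_range _)

end pa

section rs

variable {k L E : Type} [Field k] [NumberField k] [Field L] [NumberField L] [Field E]
  [NumberField E] [Algebra k L] [Algebra k E] [Algebra L E] [IsScalarTower k L E]

omit [NumberField k] [NumberField L] [NumberField E] in
theorem over_trans {w : HeightOneSpectrum (𝓞 L)} {P : HeightOneSpectrum (𝓞 E)}
    {v : HeightOneSpectrum (𝓞 k)}
    (h1 : P.asIdeal.comap (algebraMap (𝓞 L) (𝓞 E)) = w.asIdeal)
    (h2 : P.asIdeal.comap (algebraMap (𝓞 k) (𝓞 E)) = v.asIdeal) :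
    w.asIdeal.comap (algebraMap (𝓞 k) (𝓞 L)) = v.asIdeal := by
  rw [← h1, ← h2, Ideal.comap_comap]
  congr 1
  ext x
  change algebraMap L E (algebraMap k L (x : k)) = algebraMap k E (x : k)
  rw [← IsScalarTower.algebraMap_apply]

/-- Restriction of a conjugate place. -/
theorem exists_rs (S : Set (HeightOneSpectrum (𝓞 k))) (g : E ≃ₐ[k] E)
    (Q : HeightOneSpectrum (𝓞 E) ⊕ InfinitePlace E) (hQ : Q ∈ TS (ov E S)) :
    ∃ q : HeightOneSpectrum (𝓞 L) ⊕ InfinitePlace L, q ∈ TS (ov L S) ∧ ∀ ε : ℝ, 0 < ε →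
      ∃ δ : ℝ, 0 < δ ∧ ∀ z : L, paAbv q z < δ → paAbv Q (g (algebraMap L E z)) < ε := by
  rcases Q with P | u
  · rw [inl_mem_TS] at hQ
    obtain ⟨v, hv, hPv⟩ := hQ
    obtain ⟨P', hP', hP'v⟩ := exists_conj (F := k) g.symm P
    have hP'v' := (hP'v v).mp hPv
    obtain ⟨w, hw⟩ := exists_below (F := L) P'
    refine ⟨Sum.inl w, inl_mem_TS.mpr ⟨v, hv, over_trans hw hP'v'⟩, fun ε hε => ?_⟩
    obtain ⟨η, hη0, hη⟩ := exists_small_elt (Sum.inl w : Pl L) one_pos
    have h1 : plAbv (Sum.inl P' : Pl E) (algebraMap L E η) < 1 := by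
      rw [plAbv_lt_one, val_lt_one_iff hw, ← plAbv_lt_one]
      exact hη
    obtain ⟨ζ, hζ0, hζ⟩ := exists_small_elt (Sum.inl P : Pl E) hε
    obtain ⟨n, hn⟩ := exists_pow_lt_of_lt_one ((plAbv (Sum.inl P' : Pl E)).pos
      ((map_ne_zero g.symm).mpr hζ0)) h1
    refine ⟨plAbv (Sum.inl w : Pl L) (η ^ n),
      (plAbv (Sum.inl w : Pl L)).pos (pow_ne_zero n hη0), fun z hz => ?_⟩
    change plAbv (Sum.inl w : Pl L) z < _ at hz
    rw [plAbv_lt, ← val_lt_val_iff hw, ← plAbv_lt, map_pow, map_pow] at hz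
    have h3 := hz.trans hn
    rw [plAbv_lt, hP'] at h3
    have h2 := hP' (g (algebraMap L E z))
    rw [AlgEquiv.symm_apply_apply] at h2
    rw [h2, ← plAbv_lt] at h3
    exact h3.trans hζ
  · refine ⟨Sum.inr ((u.comap (g : E →+* E)).comap (algebraMap L E)), inr_mem_TS,
      fun ε hε => ⟨ε, hε, fun z hz => hz⟩⟩

/-- If `c` is near `y ^ 2 - D`, the discriminant of its quadratic polynomial in `y` is near
`4 D`. -/
theorem exists_iD_deltaI {ρ : E ≃ₐ[k] E} (S : Set (HeightOneSpectrum (𝓞 k))) (y : L) (D : k)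
    (h01 : algebraMap L E y ≠ ρ (algebraMap L E y))
    (h12 : ρ (algebraMap L E y) ≠ ρ (ρ (algebraMap L E y)))
    (h20 : ρ (ρ (algebraMap L E y)) ≠ algebraMap L E y)
    (Q : HeightOneSpectrum (𝓞 E) ⊕ InfinitePlace E) (hQ : Q ∈ TS (ov E S)) {ε : ℝ} (hε : 0 < ε) :
    ∃ δ : ℝ, 0 < δ ∧ ∀ c : L,
      (∀ q ∈ TS (ov L S), paAbv q (c - (y ^ 2 - algebraMap k L D)) < δ) →
      paAbv Q (iD (algebraMap L E y) (ρ (algebraMap L E y)) (ρ (ρ (algebraMap L E y)))
        (algebraMap L E c) (ρ (algebraMap L E c)) (ρ (ρ (algebraMap L E c))) -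
          algebraMap k E (4 * D)) < ε := by
  obtain ⟨Y, hY⟩ : ∃ Y, Y = algebraMap L E y := ⟨_, rfl⟩
  rw [← hY] at h01 h12 h20 ⊢
  obtain ⟨δ0, hδ0, h0⟩ := iD_near (paAbv Q) Y (ρ Y) (ρ (ρ Y))
    ![Y ^ 2 - algebraMap k E D, ρ Y ^ 2 - algebraMap k E D, ρ (ρ Y) ^ 2 - algebraMap k E D] hε
  obtain ⟨q0, hq0, h1⟩ := exists_rs (L := L) S 1 Q hQ
  obtain ⟨q1, hq1, h2⟩ := exists_rs (L := L) S ρ Q hQ
  obtain ⟨q2, hq2, h3⟩ := exists_rs (L := L) S (ρ * ρ) Q hQ
  obtain ⟨δ1, hδ1, h1'⟩ := h1 δ0 hδ0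
  obtain ⟨δ2, hδ2, h2'⟩ := h2 δ0 hδ0
  obtain ⟨δ3, hδ3, h3'⟩ := h3 δ0 hδ0
  refine ⟨min δ1 (min δ2 δ3), lt_min hδ1 (lt_min hδ2 hδ3), fun c hc => ?_⟩
  have e0 : algebraMap L E c - (Y ^ 2 - algebraMap k E D) =
      (1 : E ≃ₐ[k] E) (algebraMap L E (c - (y ^ 2 - algebraMap k L D))) := by
    rw [AlgEquiv.one_apply, map_sub, map_sub, map_pow, ← IsScalarTower.algebraMap_apply, hY]
  have e1 : ρ (algebraMap L E c) - (ρ Y ^ 2 - algebraMap k E D) =
      ρ (algebraMap L E (c - (y ^ 2 - algebraMap k L D))) := by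
    rw [map_sub, map_sub, map_sub, map_sub, map_pow, map_pow, ← IsScalarTower.algebraMap_apply,
      hY, ρ.commutes]
  have e2 : ρ (ρ (algebraMap L E c)) - (ρ (ρ Y) ^ 2 - algebraMap k E D) =
      (ρ * ρ) (algebraMap L E (c - (y ^ 2 - algebraMap k L D))) := by
    rw [AlgEquiv.mul_apply, ← e1, map_sub, map_sub, map_pow, ρ.commutes]
  have h4 := h0 ![algebraMap L E c, ρ (algebraMap L E c), ρ (ρ (algebraMap L E c))] (by
    intro i
    fin_cases i
    · change paAbv Q (algebraMap L E c - (Y ^ 2 - algebraMap k E D)) < δ0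
      rw [e0]
      exact h1' _ ((hc q0 hq0).trans_le (min_le_left _ _))
    · change paAbv Q (ρ (algebraMap L E c) - (ρ Y ^ 2 - algebraMap k E D)) < δ0
      rw [e1]
      exact h2' _ ((hc q1 hq1).trans_le ((min_le_right _ _).trans (min_le_left _ _)))
    · change paAbv Q (ρ (ρ (algebraMap L E c)) - (ρ (ρ Y) ^ 2 - algebraMap k E D)) < δ0
      rw [e2]
      exact h3' _ ((hc q2 hq2).trans_le ((min_le_right _ _).trans (min_le_right _ _))))
  have h5 : iD Y (ρ Y) (ρ (ρ Y)) (Y ^ 2 - algebraMap k E D) (ρ Y ^ 2 - algebraMap k E D)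
      (ρ (ρ Y) ^ 2 - algebraMap k E D) = algebraMap k E (4 * D) := by
    rw [iD_val h01 h12 h20, map_mul, map_ofNat]
  rw [← h5]
  exact h4

omit [NumberField k] [NumberField L] [NumberField E] in
/-- Coordinates in the basis `1, y, y ^ 2`. -/
theorem exists_coord {ρ : E ≃ₐ[k] E} (h3 : Module.finrank k L = 3) {y : L}
    (h01 : algebraMap L E y ≠ ρ (algebraMap L E y))
    (h12 : ρ (algebraMap L E y) ≠ ρ (ρ (algebraMap L E y)))
    (h20 : ρ (ρ (algebraMap L E y)) ≠ algebraMap L E y) (z : L) :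
    ∃ A B C : k, z = algebraMap k L A * y ^ 2 + algebraMap k L B * y + algebraMap k L C ∧
      algebraMap k E (B ^ 2 - 4 * A * C) = iD (algebraMap L E y) (ρ (algebraMap L E y))
        (ρ (ρ (algebraMap L E y))) (algebraMap L E z) (ρ (algebraMap L E z))
        (ρ (ρ (algebraMap L E z))) := by
  obtain ⟨Y, hY⟩ : ∃ Y, Y = algebraMap L E y := ⟨_, rfl⟩
  rw [← hY] at h01 h12 h20 ⊢
  have key : ∀ A B C : k, ∀ z : L,
      z = algebraMap k L A * y ^ 2 + algebraMap k L B * y + algebraMap k L C →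
      algebraMap L E z = algebraMap k E A * Y ^ 2 + algebraMap k E B * Y + algebraMap k E C ∧
      ρ (algebraMap L E z) = algebraMap k E A * (ρ Y) ^ 2 + algebraMap k E B * ρ Y +
        algebraMap k E C ∧
      ρ (ρ (algebraMap L E z)) = algebraMap k E A * (ρ (ρ Y)) ^ 2 + algebraMap k E B * ρ (ρ Y) +
        algebraMap k E C := by
    intro A B C z hz
    have e0 : algebraMap L E z =
        algebraMap k E A * Y ^ 2 + algebraMap k E B * Y + algebraMap k E C := by
      rw [hz, hY]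
      simp only [map_add, map_mul, map_pow, ← IsScalarTower.algebraMap_apply]
    have e1 : ρ (algebraMap L E z) = algebraMap k E A * (ρ Y) ^ 2 + algebraMap k E B * ρ Y +
        algebraMap k E C := by
      rw [e0]
      simp only [map_add, map_mul, map_pow, AlgEquiv.commutes]
    refine ⟨e0, e1, ?_⟩
    rw [e1]
    simp only [map_add, map_mul, map_pow, AlgEquiv.commutes]
  have hli : LinearIndependent k ![(1 : L), y, y ^ 2] := by
    rw [Fintype.linearIndependent_iff]
    intro g hg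
    rw [Fin.sum_univ_three] at hg
    simp only [Matrix.cons_val_zero, Matrix.cons_val_one, Matrix.cons_val_two, Matrix.head_cons,
      Matrix.tail_cons, Algebra.smul_def, mul_one] at hg
    obtain ⟨a0, a1, a2⟩ := key (g 2) (g 1) (g 0) 0 (by linear_combination -hg)
    rw [map_zero] at a0
    rw [map_zero, map_zero] at a1
    rw [map_zero, map_zero, map_zero] at a2
    have b1 : algebraMap k E (g 1) + algebraMap k E (g 2) * (Y + ρ Y) = 0 := by
      have := sub_ne_zero.mpr h01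
      apply mul_left_cancel₀ this
      linear_combination a1 - a0
    have b2 : algebraMap k E (g 1) + algebraMap k E (g 2) * (ρ Y + ρ (ρ Y)) = 0 := by
      have := sub_ne_zero.mpr h12
      apply mul_left_cancel₀ this
      linear_combination a2 - a1
    have b3 : algebraMap k E (g 2) = 0 := by
      have := sub_ne_zero.mpr h20
      apply mul_left_cancel₀ this
      linear_combination b2 - b1
    rw [b3, zero_mul, add_zero] at b1
    rw [b3, b1, zero_mul, zero_mul, zero_add, zero_add] at a0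
    have c2 := (map_eq_zero (algebraMap k E)).mp b3
    have c1 := (map_eq_zero (algebraMap k E)).mp b1
    have c0 := (map_eq_zero (algebraMap k E)).mp a0.symm
    intro i
    fin_cases i
    · exact c0
    · exact c1
    · exact c2
  have hfin : Module.Finite k L := Module.finite_of_finrank_pos (by rw [h3]; norm_num)
  have hsp := hli.span_eq_top_of_card_eq_finrank (by rw [h3]; rfl)
  have hz : z ∈ Submodule.span k (Set.range ![(1 : L), y, y ^ 2]) := by
    rw [hsp]
    exact Submodule.mem_top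
  rw [Submodule.mem_span_range_iff_exists_fun] at hz
  obtain ⟨g, hg⟩ := hz
  rw [Fin.sum_univ_three] at hg
  simp only [Matrix.cons_val_zero, Matrix.cons_val_one, Matrix.cons_val_two, Matrix.head_cons,
    Matrix.tail_cons, Algebra.smul_def, mul_one] at hg
  have hz : z = algebraMap k L (g 2) * y ^ 2 + algebraMap k L (g 1) * y + algebraMap k L (g 0) := by
    rw [← hg]
    ring
  refine ⟨g 2, g 1, g 0, hz, ?_⟩
  obtain ⟨a0, a1, a2⟩ := key _ _ _ z hz
  have e01 : Y - ρ Y ≠ 0 := sub_ne_zero.mpr h01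
  have e12 : ρ Y - ρ (ρ Y) ≠ 0 := sub_ne_zero.mpr h12
  have e20 : ρ (ρ Y) - Y ≠ 0 := sub_ne_zero.mpr h20
  have e10 : ρ Y - Y = -(Y - ρ Y) := by ring
  have e21 : ρ (ρ Y) - ρ Y = -(ρ Y - ρ (ρ Y)) := by ring
  have e02 : Y - ρ (ρ Y) = -(ρ (ρ Y) - Y) := by ring
  have hA : iA Y (ρ Y) (ρ (ρ Y)) (algebraMap L E z) (ρ (algebraMap L E z))
      (ρ (ρ (algebraMap L E z))) = algebraMap k E (g 2) := by
    rw [a2, a1, a0]
    simp only [iA, e10, e21, e02]
    field_simp
    ring
  have hB : iB Y (ρ Y) (ρ (ρ Y)) (algebraMap L E z) (ρ (algebraMap L E z))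
      (ρ (ρ (algebraMap L E z))) = algebraMap k E (g 1) := by
    rw [a2, a1, a0]
    simp only [iB, e10, e21, e02]
    field_simp
    ring
  have hC : iC Y (ρ Y) (ρ (ρ Y)) (algebraMap L E z) (ρ (algebraMap L E z))
      (ρ (ρ (algebraMap L E z))) = algebraMap k E (g 0) := by
    rw [a2, a1, a0]
    simp only [iC, e10, e21, e02]
    field_simp
    ring
  rw [iD, hA, hB, hC]
  simp only [map_sub, map_mul, map_pow, map_ofNat]

end rs

end Vale.Agent.P011.D4I
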